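import Vale.Agent.P011.D4T.H659.GenOf
import Vale.Agent.P011.D4T.H369.Gen2

/-!
Block D4T: generation by the centralisers of the involutions of the standard plane.
-/

open NumberField Topology

namespace Vale.Agent.P011.D4T

open Vale.Agent.P011.MPQ Vale.Agent.P011.D4 Vale.Agent.P011.D4.Oct Vale.Agent.P011.E6

variable {k L E : Type} [Field k] [NumberField k] [Field L] [NumberField L] [Field E]
  [Algebra k L] [Algebra k E] [Algebra L E]
  [IsScalarTower k L E] [NeZero (2 : E)] {ρ σ : E ≃ₐ[k] E} {ρL : L ≃ₐ[k] L} {α : E}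
  {a b c : kˣ} {q : Lˣ}

/-- **GEN.** -/
theorem gen (H : Hy ρ σ ρL α a b c q) : stabs ρ σ α a b c q = ⊤ :=
  gen_of H fun _ _ h => gen2 H h

end Vale.Agent.P011.D4T
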