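import Vale.Agent.P011.D4T.H691.Gen1

/-!
Block D4T: generation by the centralisers of the involutions of the standard plane.
-/

open NumberField Topology

set_option linter.unusedSectionVars false

namespace Vale.Agent.P011.D4T

open Vale.Agent.P011.MPQ Vale.Agent.P011.D4 Vale.Agent.P011.D4.Oct Vale.Agent.P011.E6

section gen

variable {k L E : Type} [Field k] [NumberField k] [Field L] [Field E]
  [Algebra k L] [Algebra k E] [Algebra L E]
  [IsScalarTower k L E] [NeZero (2 : E)] {ρ σ : E ≃ₐ[k] E} {ρL : L ≃ₐ[k] L} {α : E}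
  {a b c : kˣ} {q : Lˣ}

variable (H : Hy ρ σ ρL α a b c q)

include H

/-- GEN, from the two halves. -/
theorem gen_of (gen2 : ∀ (z : AT ρ σ α a b c q) (t : E), z.1 (ep α) = t • ep α →
      z ∈ stabs ρ σ α a b c q) : stabs ρ σ α a b c q = ⊤ := by
  have hα : α * α = algebraMap k E a := H.α2
  rw [eq_top_iff]
  intro z _
  obtain ⟨v, hv, z0, hz0, r, hr, e0⟩ : ∃ v : OctL E a b c, Pt ρ v ∧
      ∃ z0 ∈ stabs ρ σ α a b c q, ∃ r : E, r ≠ 0 ∧
        z0.1 (tri ρ v (Jm ρ σ α q v)) = r • ep α := by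
    refine ⟨⟨0, mk4 (up E a) (up E b) α 1 0 0 0⟩, ⟨?_, H691.tri_line H 1 0 1 0⟩, ?_⟩
    · intro he
      have h1 : mk4 (up E a) (up E b) α (1 : E) 0 0 0 = mk4 (up E a) (up E b) α 0 0 0 0 := by
        rw [mk4_zero]
        exact congrArg (fun x : OctL E a b c => x.snd) he
      exact one_ne_zero (mk4_inj hα h1).1
    · rw [← line_vec H.α2]
      exact H691.line1 H 1 0 (Or.inl one_ne_zero)
  obtain ⟨y, hy, t, ht, e1⟩ := gen1 H (H691.pt_AT z hv)
  have hκ : algebraMap L E (kap z : L) ≠ 0 := (map_ne_zero (algebraMap L E)).2 (kap z).ne_zero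
  have e2 : z.1 (tri ρ v (Jm ρ σ α q v)) =
      algebraMap L E (kap z : L) • tri ρ (z.1 v) (Jm ρ σ α q (z.1 v)) := by
    rw [isKap_kap z, z.2.2]
  have e3 : (y * z * z0⁻¹).1 (ep α) = (r⁻¹ * (algebraMap L E (kap z : L) * t)) • ep α := by
    have e4 : z0⁻¹.1 (ep α) = r⁻¹ • tri ρ v (Jm ρ σ α q v) := by
      apply z0.1.injective
      rw [map_smul, e0, smul_smul, inv_mul_cancel₀ hr, one_smul]
      change (z0 * z0⁻¹ : AT ρ σ α a b c q).1 _ = _
      rw [mul_inv_cancel]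
      rfl
    change y.1 (z.1 (z0⁻¹.1 (ep α))) = _
    rw [e4, map_smul, map_smul, e2, map_smul, e1, smul_smul, smul_smul, mul_assoc]
  have h3 := gen2 _ _ e3
  have h4 : z = y⁻¹ * (y * z * z0⁻¹) * z0 := by
    rw [mul_assoc y⁻¹, inv_mul_cancel_right, inv_mul_cancel_left]
  rw [h4]
  exact Subgroup.mul_mem _ (Subgroup.mul_mem _ (Subgroup.inv_mem _ hy) h3) hz0

end gen

end Vale.Agent.P011.D4T
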